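import Vale.Agent.P226.Cell

/-!
# P226: all our bounds for the propeller functional in one statement
-/

open MeasureTheory ProbabilityTheory Real

namespace Vale.Agent.Results.P226.Combined

/-- two cells carrying at least `91/100` of the Gaussian mass -/
private lemma two_cells (d k : ℕ) (A : Fin k → Set (EuclideanSpace ℝ (Fin d)))
    (hA : ∀ i, MeasurableSet (A i)) (hd : Pairwise (Function.onFun Disjoint A))
    (i j : Fin k) (hij : i ≠ j)
    (h : 91 / 100 ≤ (stdGaussian (EuclideanSpace ℝ (Fin d))).real (A i)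
      + (stdGaussian (EuclideanSpace ℝ (Fin d))).real (A j)) :
    ∑ l, ‖∫ x in A l, x ∂(stdGaussian (EuclideanSpace ℝ (Fin d)))‖ ^ 2 ≤ 9 / (8 * π) := by
  have hsum := Vale.Agent.P226.sum_measure_le A hA hd
  have hji : j ∈ Finset.univ.erase i := Finset.mem_erase.2 ⟨hij.symm, Finset.mem_univ j⟩
  have hsplit : ∀ f : Fin k → ℝ,
      ∑ l, f l = f i + (f j + ∑ l ∈ (Finset.univ.erase i).erase j, f l) := by
    intro f
    rw [Finset.add_sum_erase _ _ hji, Finset.add_sum_erase _ _ (Finset.mem_univ i)]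
  have h1 : ∑ l ∈ (Finset.univ.erase i).erase j,
      (stdGaussian (EuclideanSpace ℝ (Fin d))).real (A l) ≤ 9 / 100 := by
    have := hsplit (fun l => (stdGaussian (EuclideanSpace ℝ (Fin d))).real (A l))
    linarith
  have h2 : ∑ l ∈ (Finset.univ.erase i).erase j,
      ‖∫ x in A l, x ∂(stdGaussian (EuclideanSpace ℝ (Fin d)))‖ ^ 2
      ≤ 81 / 200 * (9 / 100) := by
    calc ∑ l ∈ (Finset.univ.erase i).erase j,
        ‖∫ x in A l, x ∂(stdGaussian (EuclideanSpace ℝ (Fin d)))‖ ^ 2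
        ≤ ∑ l ∈ (Finset.univ.erase i).erase j,
          81 / 200 * (stdGaussian (EuclideanSpace ℝ (Fin d))).real (A l) :=
          Finset.sum_le_sum (fun l _ => Vale.Agent.P226.cell_sq_all (A l) (hA l))
      _ = 81 / 200 * ∑ l ∈ (Finset.univ.erase i).erase j,
          (stdGaussian (EuclideanSpace ℝ (Fin d))).real (A l) := by rw [Finset.mul_sum]
      _ ≤ 81 / 200 * (9 / 100) := mul_le_mul_of_nonneg_left h1 (by norm_num)
  have h3 := Vale.Agent.P226.cell_sq_half (A i) (hA i)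
  have h3' := Vale.Agent.P226.cell_sq_half (A j) (hA j)
  rw [hsplit]
  have h4 : 1 / (2 * π) + (1 / (2 * π) + 81 / 200 * (9 / 100)) ≤ 9 / (8 * π) := by
    have hpi := Real.pi_lt_d4
    have hpos := Real.pi_pos
    have e : 9 / (8 * π) - 1 / (2 * π) - 1 / (2 * π) = 1 / (8 * π) := by
      field_simp
      norm_num
    have h5 : (81 / 200 * (9 / 100) : ℝ) ≤ 1 / (8 * π) := by
      rw [le_div_iff₀ (by positivity)]
      nlinarith
    linarith
  linarith

/-- one cell carrying at least `51/100` of the Gaussian mass -/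
private lemma one_cell (d k : ℕ) (A : Fin k → Set (EuclideanSpace ℝ (Fin d)))
    (hA : ∀ i, MeasurableSet (A i)) (hd : Pairwise (Function.onFun Disjoint A))
    (j : Fin k) (hj : 51 / 100 ≤ (stdGaussian (EuclideanSpace ℝ (Fin d))).real (A j)) :
    ∑ l, ‖∫ x in A l, x ∂(stdGaussian (EuclideanSpace ℝ (Fin d)))‖ ^ 2 ≤ 9 / (8 * π) := by
  have hsum := Vale.Agent.P226.sum_measure_le A hA hd
  have hsplit : ∀ f : Fin k → ℝ, ∑ i, f i = f j + ∑ i ∈ Finset.univ.erase j, f i := by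
    intro f
    rw [Finset.add_sum_erase _ _ (Finset.mem_univ j)]
  have h1 : ∑ i ∈ Finset.univ.erase j, (stdGaussian (EuclideanSpace ℝ (Fin d))).real (A i)
      ≤ 49 / 100 := by
    have := hsplit (fun i => (stdGaussian (EuclideanSpace ℝ (Fin d))).real (A i))
    linarith
  have h2 : ∑ i ∈ Finset.univ.erase j,
      ‖∫ x in A i, x ∂(stdGaussian (EuclideanSpace ℝ (Fin d)))‖ ^ 2
      ≤ 81 / 200 * (49 / 100) := by
    calc ∑ i ∈ Finset.univ.erase j,
        ‖∫ x in A i, x ∂(stdGaussian (EuclideanSpace ℝ (Fin d)))‖ ^ 2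
        ≤ ∑ i ∈ Finset.univ.erase j,
          81 / 200 * (stdGaussian (EuclideanSpace ℝ (Fin d))).real (A i) :=
          Finset.sum_le_sum (fun i _ => Vale.Agent.P226.cell_sq_all (A i) (hA i))
      _ = 81 / 200 * ∑ i ∈ Finset.univ.erase j,
          (stdGaussian (EuclideanSpace ℝ (Fin d))).real (A i) := by rw [Finset.mul_sum]
      _ ≤ 81 / 200 * (49 / 100) := mul_le_mul_of_nonneg_left h1 (by norm_num)
  have h3 := Vale.Agent.P226.cell_sq_half (A j) (hA j)
  rw [hsplit]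
  have h4 : 1 / (2 * π) + 81 / 200 * (49 / 100) ≤ 9 / (8 * π) := by
    have hpi := Real.pi_lt_d4
    have hpos := Real.pi_pos
    have e : 9 / (8 * π) - 1 / (2 * π) = 5 / (8 * π) := by
      field_simp
      norm_num
    have h5 : (81 / 200 * (49 / 100) : ℝ) ≤ 5 / (8 * π) := by
      rw [le_div_iff₀ (by positivity)]
      nlinarith
    linarith
  linarith

/-- For all `d`, `k` and every family `A 1, ..., A k` of pairwise disjoint measurable subsets of
`ℝ^d` (in particular every measurable partition), with `F = ∑ |∫_{A i} x dγ_d|^2`: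
`F ≤ 0.405`; and `F ≤ 9/(8π)` as soon as all cells have measure at most `1/7`, or one cell has
measure at least `0.51`, or two cells have joint measure at least `0.91`. Single cells satisfy
`|∫_A x dγ_d|^2 ≤ min (0.405 γ_d(A)) (1/(2π))`, and `≤ 9/(8π) γ_d(A)` if `γ_d(A) ≤ 1/7`. -/
theorem result :
    (∀ (d k : ℕ) (A : Fin k → Set (EuclideanSpace ℝ (Fin d))),
      (∀ i, MeasurableSet (A i)) → Pairwise (Function.onFun Disjoint A) →
      ∑ i, ‖∫ x in A i, x ∂(stdGaussian (EuclideanSpace ℝ (Fin d)))‖ ^ 2 ≤ 81 / 200 ∧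
      (((∀ i, (stdGaussian (EuclideanSpace ℝ (Fin d))).real (A i) ≤ 1 / 7) ∨
        (∃ i, 51 / 100 ≤ (stdGaussian (EuclideanSpace ℝ (Fin d))).real (A i)) ∨
        (∃ i j, i ≠ j ∧ 91 / 100 ≤ (stdGaussian (EuclideanSpace ℝ (Fin d))).real (A i)
          + (stdGaussian (EuclideanSpace ℝ (Fin d))).real (A j))) →
      ∑ i, ‖∫ x in A i, x ∂(stdGaussian (EuclideanSpace ℝ (Fin d)))‖ ^ 2 ≤ 9 / (8 * π))) ∧
    (∀ (d : ℕ) (A : Set (EuclideanSpace ℝ (Fin d))), MeasurableSet A →
      ‖∫ x in A, x ∂(stdGaussian (EuclideanSpace ℝ (Fin d)))‖ ^ 2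
        ≤ 81 / 200 * (stdGaussian (EuclideanSpace ℝ (Fin d))).real A ∧
      ‖∫ x in A, x ∂(stdGaussian (EuclideanSpace ℝ (Fin d)))‖ ^ 2 ≤ 1 / (2 * π) ∧
      ((stdGaussian (EuclideanSpace ℝ (Fin d))).real A ≤ 1 / 7 →
        ‖∫ x in A, x ∂(stdGaussian (EuclideanSpace ℝ (Fin d)))‖ ^ 2
          ≤ 9 / (8 * π) * (stdGaussian (EuclideanSpace ℝ (Fin d))).real A)) := by
  refine ⟨?_, ?_⟩
  · intro d k A hA hd
    have hsum := Vale.Agent.P226.sum_measure_le A hA hd
    refine ⟨?_, ?_⟩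
    · calc ∑ i, ‖∫ x in A i, x ∂(stdGaussian (EuclideanSpace ℝ (Fin d)))‖ ^ 2
          ≤ ∑ i, 81 / 200 * (stdGaussian (EuclideanSpace ℝ (Fin d))).real (A i) :=
            Finset.sum_le_sum (fun i _ => Vale.Agent.P226.cell_sq_all (A i) (hA i))
        _ = 81 / 200 * ∑ i, (stdGaussian (EuclideanSpace ℝ (Fin d))).real (A i) := by
            rw [Finset.mul_sum]
        _ ≤ 81 / 200 * 1 := mul_le_mul_of_nonneg_left hsum (by norm_num)
        _ = 81 / 200 := by norm_num
    · rintro (h | ⟨j, hj⟩ | ⟨i, j, hij, h⟩)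
      · calc ∑ i, ‖∫ x in A i, x ∂(stdGaussian (EuclideanSpace ℝ (Fin d)))‖ ^ 2
            ≤ ∑ i, 9 / (8 * π) * (stdGaussian (EuclideanSpace ℝ (Fin d))).real (A i) :=
              Finset.sum_le_sum (fun i _ => Vale.Agent.P226.cell_sq_seventh (A i) (hA i) (h i))
          _ = 9 / (8 * π) * ∑ i, (stdGaussian (EuclideanSpace ℝ (Fin d))).real (A i) := by
              rw [Finset.mul_sum]
          _ ≤ 9 / (8 * π) * 1 := mul_le_mul_of_nonneg_left hsum (by positivity)
          _ = 9 / (8 * π) := by ring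
      · exact one_cell d k A hA hd j hj
      · exact two_cells d k A hA hd i j hij h
  · intro d A hA
    exact ⟨Vale.Agent.P226.cell_sq_all A hA, Vale.Agent.P226.cell_sq_half A hA,
      fun h => Vale.Agent.P226.cell_sq_seventh A hA h⟩

end Vale.Agent.Results.P226.Combined
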