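import Vale.Agent.P226.Cell

/-!
# P226: the propeller inequality for partitions with only small cells or with one large cell
-/

open MeasureTheory ProbabilityTheory Real

namespace Vale.Agent.Results.P226.SmallOrLargeCells

/-- For all `d`, `k` and every family `A 1, ..., A k` of pairwise disjoint measurable subsets of
`ℝ^d` (in particular every measurable partition): if every cell has Gaussian measure at most
`1/7`, or some cell has Gaussian measure at least `51/100`, then
`∑ |∫_{A i} x dγ_d|^2 ≤ 9/(8π)`. -/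
theorem result (d k : ℕ) (A : Fin k → Set (EuclideanSpace ℝ (Fin d)))
    (hA : ∀ i, MeasurableSet (A i)) (hd : Pairwise (Function.onFun Disjoint A))
    (h : (∀ i, (stdGaussian (EuclideanSpace ℝ (Fin d))).real (A i) ≤ 1 / 7) ∨
      (∃ i, 51 / 100 ≤ (stdGaussian (EuclideanSpace ℝ (Fin d))).real (A i))) :
    ∑ i, ‖∫ x in A i, x ∂(stdGaussian (EuclideanSpace ℝ (Fin d)))‖ ^ 2 ≤ 9 / (8 * π) := by
  have hsum := Vale.Agent.P226.sum_measure_le A hA hd
  rcases h with h | ⟨j, hj⟩
  · calc ∑ i, ‖∫ x in A i, x ∂(stdGaussian (EuclideanSpace ℝ (Fin d)))‖ ^ 2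
        ≤ ∑ i, 9 / (8 * π) * (stdGaussian (EuclideanSpace ℝ (Fin d))).real (A i) :=
          Finset.sum_le_sum (fun i _ => Vale.Agent.P226.cell_sq_seventh (A i) (hA i) (h i))
      _ = 9 / (8 * π) * ∑ i, (stdGaussian (EuclideanSpace ℝ (Fin d))).real (A i) := by
          rw [Finset.mul_sum]
      _ ≤ 9 / (8 * π) * 1 := mul_le_mul_of_nonneg_left hsum (by positivity)
      _ = 9 / (8 * π) := by ring
  · have hsplit : ∀ f : Fin k → ℝ, ∑ i, f i = f j + ∑ i ∈ Finset.univ.erase j, f i := by
      intro f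
      rw [Finset.add_sum_erase _ _ (Finset.mem_univ j)]
    have h1 : ∑ i ∈ Finset.univ.erase j, (stdGaussian (EuclideanSpace ℝ (Fin d))).real (A i)
        ≤ 49 / 100 := by
      have := hsplit (fun i => (stdGaussian (EuclideanSpace ℝ (Fin d))).real (A i))
      linarith
    have h2 : ∑ i ∈ Finset.univ.erase j,
        ‖∫ x in A i, x ∂(stdGaussian (EuclideanSpace ℝ (Fin d)))‖ ^ 2
        ≤ 81 / 200 * (49 / 100) := by
      calc ∑ i ∈ Finset.univ.erase j,
          ‖∫ x in A i, x ∂(stdGaussian (EuclideanSpace ℝ (Fin d)))‖ ^ 2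
          ≤ ∑ i ∈ Finset.univ.erase j,
            81 / 200 * (stdGaussian (EuclideanSpace ℝ (Fin d))).real (A i) :=
            Finset.sum_le_sum (fun i _ => Vale.Agent.P226.cell_sq_all (A i) (hA i))
        _ = 81 / 200 * ∑ i ∈ Finset.univ.erase j,
            (stdGaussian (EuclideanSpace ℝ (Fin d))).real (A i) := by rw [Finset.mul_sum]
        _ ≤ 81 / 200 * (49 / 100) := mul_le_mul_of_nonneg_left h1 (by norm_num)
    have h3 := Vale.Agent.P226.cell_sq_half (A j) (hA j)
    rw [hsplit]
    have h4 : 1 / (2 * π) + 81 / 200 * (49 / 100) ≤ 9 / (8 * π) := by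
      have hpi := Real.pi_lt_d4
      have hpos := Real.pi_pos
      have e : 9 / (8 * π) - 1 / (2 * π) = 5 / (8 * π) := by
        field_simp
        norm_num
      have h5 : (81 / 200 * (49 / 100) : ℝ) ≤ 5 / (8 * π) := by
        rw [le_div_iff₀ (by positivity)]
        nlinarith
      linarith
    linarith

end Vale.Agent.Results.P226.SmallOrLargeCells
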