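import Vale.Agent.P226.Cell

/-!
# P226: a dimension-free and cell-number-free upper bound for the propeller functional
-/

open MeasureTheory ProbabilityTheory

namespace Vale.Agent.Results.P226.UniversalBound

/-- For all `d`, `k` and every family `A 1, ..., A k` of pairwise disjoint measurable subsets of
`ℝ^d` (in particular every measurable partition), the sum of the squared norms of the Gaussian
first moments `∫_{A i} x dγ_d` is at most `0.405`. Moreover each cell satisfies
`|∫_A x dγ_d|^2 ≤ 0.405 γ_d(A)`. -/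
theorem result :
    (∀ (d k : ℕ) (A : Fin k → Set (EuclideanSpace ℝ (Fin d))),
      (∀ i, MeasurableSet (A i)) → Pairwise (Function.onFun Disjoint A) →
      ∑ i, ‖∫ x in A i, x ∂(stdGaussian (EuclideanSpace ℝ (Fin d)))‖ ^ 2 ≤ 81 / 200) ∧
    (∀ (d : ℕ) (A : Set (EuclideanSpace ℝ (Fin d))), MeasurableSet A →
      ‖∫ x in A, x ∂(stdGaussian (EuclideanSpace ℝ (Fin d)))‖ ^ 2
        ≤ 81 / 200 * (stdGaussian (EuclideanSpace ℝ (Fin d))).real A) := by
  refine ⟨?_, ?_⟩
  · intro d k A hA hd
    calc ∑ i, ‖∫ x in A i, x ∂(stdGaussian (EuclideanSpace ℝ (Fin d)))‖ ^ 2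
        ≤ ∑ i, 81 / 200 * (stdGaussian (EuclideanSpace ℝ (Fin d))).real (A i) :=
          Finset.sum_le_sum (fun i _ => Vale.Agent.P226.cell_sq_all (A i) (hA i))
      _ = 81 / 200 * ∑ i, (stdGaussian (EuclideanSpace ℝ (Fin d))).real (A i) := by
          rw [Finset.mul_sum]
      _ ≤ 81 / 200 * 1 :=
          mul_le_mul_of_nonneg_left (Vale.Agent.P226.sum_measure_le A hA hd) (by norm_num)
      _ = 81 / 200 := by norm_num
  · intro d A hA
    exact Vale.Agent.P226.cell_sq_all A hA

end Vale.Agent.Results.P226.UniversalBound
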